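import Vale.Agent.P273.H948.Moves
import Vale.Agent.P273.H469.Sec

/-!
P273, the move M2 on states: a label `j` that meets the inserted mark `i` becomes a marked point of
the modified family (`i` at `a = 0`, `j` at `a = 1` on the new lines).
-/

noncomputable section

open Set Filter Topology OnePoint

namespace Vale.Agent.P273.H948

open Vale.Agent.P273.H469

variable {m : ℕ}

theorem isSec_congr {S : Surf m} {B : Set (Fin m → ℂ)} (hB : IsOpen B)
    {σ σ' : (Fin m → ℂ) → S.X} (h : IsSec S B σ) (e : ∀ b ∈ B, σ' b = σ b) : IsSec S B σ' := by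
  intro b hb
  obtain ⟨h1, h2, h3⟩ := h b hb
  have e' : σ' =ᶠ[𝓝 b] σ := by
    filter_upwards [hB.mem_nhds hb] with b' hb' using e b' hb'
  refine ⟨by rw [e b hb]; exact h1, h2.congr e'.symm, ?_⟩
  intro f hf
  rw [e b hb] at hf
  refine (h3 f hf).congr ?_
  filter_upwards [e'] with b' hb'
  rw [hb']

namespace BubMove

variable {X₀ : Surf m} {L : Type} {P : L → (Fin m → ℂ) → X₀.X} {A : Set L}
  {σ : State X₀ P A} {i j : L} (N : BubMove σ i j)

include N in
theorem ij : i ≠ j := fun h => N.jA (h ▸ N.iA)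

/-- The point `(x, w)` of the new surface. -/
def pt {x : σ.F.S.X} {w : OnePoint ℂ} (h : N.D.P (x, w)) : N.D.bub.X := (⟨(x, w), h⟩ : N.D.Sp)

open Classical in
/-- The point `(x, w)` of the modified surface if it exists, otherwise the lift of `x`. -/
def up (x : σ.F.S.X) (w : OnePoint ℂ) : N.D.modif.T.X :=
  if h : N.D.P (x, w) then N.D.modif.ιN (N.pt h) else (BubData.fib (D := N.D)).lift x

theorem up_eq {x : σ.F.S.X} {w : OnePoint ℂ} (h : N.D.P (x, w)) :
    N.up x w = N.D.modif.ιN (N.pt h) := dif_pos h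

theorem r_up (x : σ.F.S.X) (w : OnePoint ℂ) : N.D.modif.r (N.up x w) = x := by
  by_cases h : N.D.P (x, w)
  · rw [N.up_eq h, Modif.rN]; rfl
  · have : N.up x w = (BubData.fib (D := N.D)).lift x := dif_neg h
    rw [this, Modif.Fib.r_lift]

open Classical in
/-- The positions after the move. -/
def s' (k : L) (b : Fin m → ℂ) : N.D.modif.T.X :=
  if k = i then N.up (σ.s k b) oz else if k = j then N.up (σ.s k b) oo else
    (BubData.fib (D := N.D)).lift (σ.s k b)

theorem s'_i (b : Fin m → ℂ) : N.s' i b = N.up (σ.s i b) oz := if_pos rfl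

theorem s'_j (b : Fin m → ℂ) : N.s' j b = N.up (σ.s j b) oo := by
  have h : ¬ j = i := fun h => N.ij h.symm
  simp only [s', h, if_false, if_true]

theorem s'_of_ne {k : L} (h1 : k ≠ i) (h2 : k ≠ j) (b : Fin m → ℂ) :
    N.s' k b = (BubData.fib (D := N.D)).lift (σ.s k b) := by
  simp only [s', h1, h2, if_false]

theorem mem_P_i {b : Fin m → ℂ} (hb : b ∈ σ.F.B) : N.D.P (σ.s i b, oz) := by
  refine ⟨N.mem_i b hb, rel2_coe ?_⟩
  change N.D.ξ (σ.s i b) = N.D.t (σ.F.S.π (σ.s i b)) * 0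
  rw [N.ξ_i b hb, mul_zero]

theorem mem_P_j {b : Fin m → ℂ} (hb : b ∈ σ.F.B) : N.D.P (σ.s j b, oo) := by
  refine ⟨N.mem_j b hb, rel2_coe ?_⟩
  change N.D.ξ (σ.s j b) = N.D.t (σ.F.S.π (σ.s j b)) * 1
  rw [N.ξ_j b hb, mul_one, (σ.sec j b hb).1]

/-- over the base a point of the centre is the mark `i`. -/
theorem eq_of_ξ {x : σ.F.S.X} (hx : x ∈ N.D.U) (h0 : N.D.ξ x = 0) : x = σ.s i (σ.F.S.π x) := by
  have hb := σ.F.mem x
  refine N.D.co.inj hx (N.mem_i _ hb) ?_
  simp only [(σ.sec i _ hb).1, h0, N.ξ_i _ hb]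

theorem not_mem_Z {k : L} (h1 : k ≠ i) (h2 : k ≠ j) {b : Fin m → ℂ} (hb : b ∈ σ.F.B) :
    σ.s k b ∉ N.D.Z := by
  rintro ⟨hx, h0, -⟩
  have h := N.eq_of_ξ hx h0
  rw [(σ.sec k b hb).1] at h
  exact (N.off k h1 h2 b hb).1 h

theorem r_s' (k : L) (b : Fin m → ℂ) : N.D.modif.r (N.s' k b) = σ.s k b := by
  by_cases h1 : k = i
  · rw [h1, N.s'_i, N.r_up]
  by_cases h2 : k = j
  · rw [h2, N.s'_j, N.r_up]
  rw [N.s'_of_ne h1 h2, Modif.Fib.r_lift]

theorem sec_i : IsSec N.D.modif.T σ.F.B (N.s' i) := by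
  obtain ⟨τ, h1, h2⟩ := BubData.sec (D := N.D) σ.F.openB ⟨N.c, N.mem_c⟩ (σ.sec i) N.mem_i
    (μ := fun _ => 0) (fun _ _ => analyticAt_const) fun b hb => by rw [N.ξ_i b hb, mul_zero]
  refine isSec_congr σ.F.openB (N.D.modif.secN h1) fun b hb => ?_
  rw [N.s'_i, N.up_eq (N.mem_P_i hb), Function.comp_apply]
  exact congrArg _ (Subtype.ext (Prod.ext (h2 b hb).1.symm (h2 b hb).2.symm))

theorem sec_j : IsSec N.D.modif.T σ.F.B (N.s' j) := by
  obtain ⟨τ, h1, h2⟩ := BubData.sec (D := N.D) σ.F.openB ⟨N.c, N.mem_c⟩ (σ.sec j) N.mem_j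
    (μ := fun _ => 1) (fun _ _ => analyticAt_const) fun b hb => by rw [N.ξ_j b hb, mul_one]
  refine isSec_congr σ.F.openB (N.D.modif.secN h1) fun b hb => ?_
  rw [N.s'_j, N.up_eq (N.mem_P_j hb), Function.comp_apply]
  exact congrArg _ (Subtype.ext (Prod.ext (h2 b hb).1.symm (h2 b hb).2.symm))

theorem sec' (k : L) : IsSec N.D.modif.T σ.F.B (N.s' k) := by
  by_cases h1 : k = i
  · rw [h1]; exact N.sec_i
  by_cases h2 : k = j
  · rw [h2]; exact N.sec_j
  have e : N.s' k = (BubData.fib (D := N.D)).lift ∘ σ.s k := by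
    funext b; exact N.s'_of_ne h1 h2 b
  rw [e]
  exact Modif.Fib.sec _ (σ.sec k) fun b hb => N.not_mem_Z h1 h2 hb

theorem smooth_i {b : Fin m → ℂ} (hb : b ∈ σ.F.B) : N.D.modif.T.SmoothAt (N.s' i b) := by
  rw [N.s'_i, N.up_eq (N.mem_P_i hb)]
  exact N.D.modif.smoothN (BubData.smooth₁ (OnePoint.coe_ne_infty 0))

theorem smooth_j {b : Fin m → ℂ} (hb : b ∈ σ.F.B) : N.D.modif.T.SmoothAt (N.s' j b) := by
  rw [N.s'_j, N.up_eq (N.mem_P_j hb)]
  exact N.D.modif.smoothN (BubData.smooth₁ (OnePoint.coe_ne_infty 1))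

theorem smooth_off {k : L} (h1 : k ≠ i) (h2 : k ≠ j) {b : Fin m → ℂ} (hb : b ∈ σ.F.B)
    (h : σ.F.S.SmoothAt (σ.s k b)) : N.D.modif.T.SmoothAt (N.s' k b) := by
  rw [N.s'_of_ne h1 h2]
  exact Modif.Fib.smooth _ (N.not_mem_Z h1 h2 hb) h

theorem s'_i_ne_s'_j {b : Fin m → ℂ} (hb : b ∈ σ.F.B) : N.s' i b ≠ N.s' j b := by
  rw [N.s'_i, N.s'_j, N.up_eq (N.mem_P_i hb), N.up_eq (N.mem_P_j hb)]
  intro h
  have h1 := congrArg (fun y : N.D.Sp => y.1.2) (N.D.modif.embN.injective h)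
  have h2 : (0 : ℂ) = 1 := OnePoint.coe_injective h1
  exact zero_ne_one h2

/-- **M2 on states.** -/
def state : State X₀ P (insert j A) :=
  σ.mod N.D.modif BubData.fib N.s' N.sec' (fun k b _ => N.r_s' k b) (insert j A)
    (by
      rintro k hk b hb
      by_cases h1 : k = i
      · rw [h1]; exact N.smooth_i hb
      by_cases h2 : k = j
      · rw [h2]; exact N.smooth_j hb
      · exact N.smooth_off h1 h2 hb (σ.smooth k (hk.resolve_left h2) b hb))
    (by
      have key : ∀ k ∈ A, ∀ b ∈ σ.F.B, N.s' k b ≠ N.s' j b := by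
        intro k hk b hb h
        by_cases h1 : k = i
        · rw [h1] at h; exact N.s'_i_ne_s'_j hb h
        · have h2 : k ≠ j := fun h2 => N.jA (h2 ▸ hk)
          have h3 := congrArg N.D.modif.r h
          rw [N.r_s', N.r_s'] at h3
          exact (N.off k h1 h2 b hb).2 h3
      rintro k (rfl | hk) l (rfl | hl) b hb h
      · rfl
      · exact absurd h.symm (key l hl b hb)
      · exact absurd h (key k hk b hb)
      · have h3 := congrArg N.D.modif.r h
        rw [N.r_s', N.r_s'] at h3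
        exact σ.inj k hk l hl b hb h3)
    (by
      rintro x ⟨hx, h0, ht⟩ - hinj
      apply N.ij
      apply hinj
      have hb := σ.F.mem x
      have e1 : σ.s i (σ.F.S.π x) = σ.s j (σ.F.S.π x) := by
        have h4 := N.eq_of_ξ (N.mem_j _ hb) (by rw [N.ξ_j _ hb]; exact ht)
        rw [(σ.sec j _ hb).1] at h4
        exact h4.symm
      rw [← σ.rs i _ hb, ← σ.rs j _ hb, e1])

theorem state_B : N.state.F.B = σ.F.B := rfl

theorem state_s (k : L) : N.state.s k = N.s' k := rfl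

theorem state_r (x : N.state.F.S.X) : N.state.r x = σ.r (N.D.modif.r x) := rfl

theorem state_F : N.state.F = σ.F.modify N.D.modif BubData.fib := rfl

/-- the mark `i` in the coordinates of the new part. -/
theorem s'_i_mem {b : Fin m → ℂ} (hb : b ∈ σ.F.B) :
    ∃ y, N.s' i b = N.D.modif.ιN y ∧ N.D.ρ y = σ.s i b ∧ N.D.a y = oz :=
  ⟨N.pt (N.mem_P_i hb), by rw [N.s'_i, N.up_eq (N.mem_P_i hb)], rfl, rfl⟩

/-- the mark `j` in the coordinates of the new part. -/
theorem s'_j_mem {b : Fin m → ℂ} (hb : b ∈ σ.F.B) :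
    ∃ y, N.s' j b = N.D.modif.ιN y ∧ N.D.ρ y = σ.s j b ∧ N.D.a y = oo :=
  ⟨N.pt (N.mem_P_j hb), by rw [N.s'_j, N.up_eq (N.mem_P_j hb)], rfl, rfl⟩

/-- the other labels are lifted. -/
theorem s'_off {k : L} (h1 : k ≠ i) (h2 : k ≠ j) {b : Fin m → ℂ} (hb : b ∈ σ.F.B) :
    N.s' k b = (BubData.fib (D := N.D)).lift (σ.s k b) ∧ σ.s k b ∉ N.D.Z :=
  ⟨N.s'_of_ne h1 h2 b, N.not_mem_Z h1 h2 hb⟩

/-- If all other labels are at smooth points over `b`, then all labels are at smooth points after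
the move. -/
theorem state_smooth {b : Fin m → ℂ} (hb : b ∈ σ.F.B)
    (h : ∀ k, k ≠ i → k ≠ j → σ.F.S.SmoothAt (σ.s k b)) (k : L) :
    N.state.F.S.SmoothAt (N.state.s k b) := by
  change N.D.modif.T.SmoothAt (N.s' k b)
  by_cases h1 : k = i
  · rw [h1]; exact N.smooth_i hb
  by_cases h2 : k = j
  · rw [h2]; exact N.smooth_j hb
  · exact N.smooth_off h1 h2 hb (h k h1 h2)

/-- Two labels that coincide after the move coincided before it, and are not `i` and `j`. -/
theorem state_eq {b : Fin m → ℂ} {k l : L} (h : N.state.s k b = N.state.s l b) :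
    σ.s k b = σ.s l b := by
  have h3 := congrArg N.D.modif.r (show N.s' k b = N.s' l b from h)
  rwa [N.r_s', N.r_s'] at h3

end BubMove

end Vale.Agent.P273.H948
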