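import Vale.Agent.P273.H95.Wall

/-!
P273, BULK: change of charts of `Wf` (item W2 of 887 / hypothesis `h2` of 811's `bulkSmooth_of`).
-/

noncomputable section

namespace Vale.Agent.P273.H182

open Set Filter MeasureTheory H681 H973 H95
open scoped Topology ContDiff

/-! ### The polynomials -/

theorem xx_inj {b : C6} (hb : b ∈ XX) : Function.Injective b := by
  intro i j h
  by_contra hne
  rcases lt_or_gt_of_ne hne with h1 | h1
  · have := hb i j h1 (by rw [h])
    rw [h] at this
    exact lt_irrefl _ this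
  · have := hb j i h1 (by rw [h])
    rw [h] at this
    exact lt_irrefl _ this

theorem natDegree_P (b : C6) :
    (∏ k : Fin 6, (Polynomial.X - Polynomial.C (b k))).natDegree = 6 := by
  rw [Polynomial.natDegree_finsetProd_X_sub_C_eq_card]
  simp

theorem monic_P (b : C6) : (∏ k : Fin 6, (Polynomial.X - Polynomial.C (b k))).Monic :=
  Polynomial.monic_prod_of_monic _ _ fun k _ => Polynomial.monic_X_sub_C (b k)

/-- The polynomial with coefficients `rts b`. -/
theorem poly_rts (b : C6) : ∏ k : Fin 6, (Polynomial.X - Polynomial.C (b k)) =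
    Polynomial.X ^ 6 + ∑ i : Fin 6, Polynomial.C (rts b i) * Polynomial.X ^ (i : ℕ) := by
  have h := (∏ k : Fin 6, (Polynomial.X - Polynomial.C (b k))).as_sum_range_C_mul_X_pow
  rw [natDegree_P, Finset.sum_range_succ, Finset.sum_range] at h
  have h6 : (∏ k : Fin 6, (Polynomial.X - Polynomial.C (b k))).coeff 6 = 1 := by
    have := (monic_P b).coeff_natDegree
    rwa [natDegree_P] at this
  rw [h6, Polynomial.C_1, one_mul] at h
  rw [add_comm]
  exact h

theorem sx_rts (b : C6) (x : ℂ) : sx (rts b) x = ∏ k : Fin 6, (x - b k) := by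
  have h := congrArg (Polynomial.eval x) (poly_rts b)
  rw [Polynomial.eval_prod, Polynomial.eval_add, Polynomial.eval_finsetSum] at h
  simp only [Polynomial.eval_sub, Polynomial.eval_X, Polynomial.eval_C, Polynomial.eval_mul,
    Polynomial.eval_pow] at h
  rw [h, sx]

theorem sx1_rts (b : C6) (x : ℂ) : sx1 (rts b) x =
    Polynomial.eval x (Polynomial.derivative (∏ k : Fin 6, (Polynomial.X - Polynomial.C (b k)))) := by
  rw [poly_rts, Polynomial.derivative_add, Polynomial.derivative_sum, Polynomial.eval_add,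
    Polynomial.eval_finsetSum]
  simp only [Polynomial.derivative_X_pow, Polynomial.derivative_C_mul_X_pow, Polynomial.eval_mul,
    Polynomial.eval_pow, Polynomial.eval_X, Polynomial.eval_C, sx1]
  norm_num
  refine Finset.sum_congr rfl fun i _ => ?_
  ring

theorem sw_eq (a : C6) {w : ℂ} (hw : w ≠ 0) : H95.sw a w = w ^ 6 * sx a w⁻¹ := by
  rw [H95.sw, sx, mul_add, ← mul_pow, mul_inv_cancel₀ hw, one_pow, Finset.mul_sum]
  congr 1
  refine Finset.sum_congr rfl fun i _ => ?_
  have hi : (i : ℕ) ≤ 6 := by have := i.2; omega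
  have : w ^ 6 * (a i * w⁻¹ ^ (i : ℕ)) = a i * (w ^ 6 * w⁻¹ ^ (i : ℕ)) := by ring
  rw [this, inv_pow]
  congr 1
  rw [eq_mul_inv_iff_mul_eq₀ (pow_ne_zero _ hw), ← pow_add]
  congr 1
  omega

theorem sw_rts (b : C6) (w : ℂ) : H95.sw (rts b) w = ∏ k : Fin 6, (1 - b k * w) := by
  by_cases hw : w = 0
  · subst hw
    simp only [H95.sw, mul_zero, sub_zero, Finset.prod_const_one]
    rw [Finset.sum_eq_zero, add_zero]
    intro i _
    have hi : 6 - (i : ℕ) ≠ 0 := by have := i.2; omega
    rw [zero_pow hi, mul_zero]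
  · rw [sw_eq _ hw, sx_rts]
    have h : w ^ 6 = ∏ _k : Fin 6, w := by simp
    rw [h, ← Finset.prod_mul_distrib]
    refine Finset.prod_congr rfl fun k _ => ?_
    rw [mul_sub, mul_inv_cancel₀ hw, mul_comm]

theorem pol_inv (s s' : Bool) (a : C6) {z : ℂ} (hz : z ≠ 0) (hs : s ≠ s') :
    pol s' a z⁻¹ = (z⁻¹) ^ 6 * pol s a z := by
  cases s <;> cases s' <;> simp only [ne_eq, not_true_eq_false, Bool.false_eq_true,
    Bool.true_eq_false, not_false_eq_true, pol, if_true, if_false] at hs ⊢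
  · rw [sw_eq a (inv_ne_zero hz), inv_inv]
  · rw [sw_eq a hz, ← mul_assoc, ← mul_pow, inv_mul_cancel₀ hz, one_pow, one_mul]

theorem rts_K6 {b : C6} (hb : b ∈ XX) : rts b ∈ K6 := by
  rintro x ⟨h0, h1, -⟩
  have hsep : (∏ k : Fin 6, (Polynomial.X - Polynomial.C (b k))).Separable :=
    Polynomial.separable_prod_X_sub_C_iff.2 (xx_inj hb)
  have h := hsep.aeval_derivative_ne_zero (x := x) (by
    rw [Polynomial.coe_aeval_eq_eval, Polynomial.eval_prod]
    simp only [Polynomial.eval_sub, Polynomial.eval_X, Polynomial.eval_C]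
    rw [← sx_rts]
    exact h0)
  apply h
  rw [Polynomial.coe_aeval_eq_eval, ← sx1_rts]
  exact h1

/-- a mark with `v = 0` is at one of the six roots. -/
theorem root_of_pol {s : Bool} {b : C6} {z : ℂ} (h : pol s (rts b) z = 0) :
    ∃ k : Fin 6, if s then z * b k - 1 = 0 else z - b k = 0 := by
  cases s
  · simp only [pol, Bool.false_eq_true, if_false] at h ⊢
    rw [sx_rts, Finset.prod_eq_zero_iff] at h
    obtain ⟨k, -, hk⟩ := h
    exact ⟨k, hk⟩
  · simp only [pol, if_true] at h ⊢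
    rw [sw_rts, Finset.prod_eq_zero_iff] at h
    obtain ⟨k, -, hk⟩ := h
    exact ⟨k, by linear_combination -hk⟩

/-! ### The gauge -/

theorem isCl_col4 (a : Fin 4) : IsCl (col4 a) := by
  fin_cases a <;> simp [IsCl, col4, Fin.sum_univ_succ] <;> norm_num

theorem mrk_surj (j : L) : ∃ i, mrk i = j := by
  obtain ⟨a, s⟩ := j
  cases s
  · refine ⟨⟨a + 7, by have := a.2; omega⟩, ?_⟩
    simp [mrk]
  · refine ⟨⟨a, by have := a.2; omega⟩, ?_⟩
    simp [mrk]

theorem th_ext {Θ : Gauge} {i i' : Fin 14} {S S' : L → Bool} {e e' : E} {v v' : L → ℂ}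
    {A A' : E →L[ℝ] E}
    (h : ∀ ξ, IsCl ξ → (Θ.θ (mrk i) ξ S e v).comp A = (Θ.θ (mrk i') ξ S' e' v').comp A') :
    (Θ.th i S e v).comp A = (Θ.th i' S' e' v').comp A' := by
  refine ContinuousLinearMap.ext fun u => funext fun a => ?_
  have := congrArg (fun f : E →L[ℝ] ℝ => f u) (h (col4 a) (isCl_col4 a))
  exact this

/-- the form of a mark at a root is zero. -/
theorem th_root (Θ : Gauge) {S : L → Bool} {e : E} {v : L → ℂ} (he : e.1 ∈ XX)
    (hv : ∀ i, v i ^ 2 = pol (S i) (rts e.1) (e.2 i)) {i : Fin 14} (h0 : v (mrk i) = 0) :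
    Θ.th i S e v = 0 := by
  have h1 : pol (S (mrk i)) (rts e.1) (e.2 (mrk i)) = 0 := by
    rw [← hv, h0]
    simp
  obtain ⟨k, hk⟩ := root_of_pol h1
  obtain ⟨r, hr, hroot⟩ := Θ.root e.1 he k
  refine ContinuousLinearMap.ext fun u => funext fun a => ?_
  have h2 := hroot (mrk i) (col4 a) S e v (isCl_col4 a) (by simpa using hr) (by
    cases hS : S (mrk i)
    · rw [hS] at hk
      simp only [Bool.false_eq_true, if_false] at hk ⊢
      rw [hk, norm_zero]
      exact hr
    · rw [hS] at hk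
      simp only [if_true] at hk ⊢
      rw [hk, norm_zero]
      exact hr) hv
  change Θ.θ (mrk i) (col4 a) S e v u = 0
  rw [h2]
  rfl

/-- the forms of two coinciding marks of the same type are equal. -/
theorem th_col (Θ : Gauge) {S : L → Bool} {e : E} {v : L → ℂ} (he : e.1 ∈ XX)
    (hv : OnC S (rts e.1) e.2 v) {i j : Fin 14} (hij : mrk i ≠ mrk j)
    (h2 : (mrk i).2 = (mrk j).2)
    (hs : Same (S (mrk i)) (e.2 (mrk i)) (v (mrk i)) (S (mrk j)) (e.2 (mrk j)) (v (mrk j))) :
    Θ.th i S e v = Θ.th j S e v := by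
  obtain ⟨r, hr, h⟩ := Θ.col (mrk i) (mrk j) hij h2 S e v he hv hs
  have h' := h e v (by simpa using hr) (fun l => by simpa using hr) fun l => (hv l).1
  refine ContinuousLinearMap.ext fun u => funext fun a => ?_
  change Θ.θ (mrk i) (col4 a) S e v u = Θ.θ (mrk j) (col4 a) S e v u
  rw [h' (col4 a) (isCl_col4 a)]

/-- **the terms with a mark at a root or with a same type collision vanish**. -/
theorem term_eq_zero (Θ : Gauge) {T : MT} (hT : SymT T) {S : L → Bool} {e : E} {v : L → ℂ}
    (he : e.1 ∈ XX) (hv : ∀ i, v i ^ 2 = pol (S i) (rts e.1) (e.2 i))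
    (h : ¬ (OnC S (rts e.1) e.2 v ∧ Sep S e.2 v)) (F : Alt 16 E) :
    wedgeT F T (fun i => Θ.th i S e v) = 0 := by
  by_cases h0 : ∀ j, v j ≠ 0
  · have hon : OnC S (rts e.1) e.2 v := fun j => ⟨hv j, h0 j⟩
    have hs : ¬ Sep S e.2 v := fun hs => h ⟨hon, hs⟩
    simp only [H95.Sep, not_forall, not_not] at hs
    obtain ⟨i, j, hij, h2, hsame⟩ := hs
    obtain ⟨a, rfl⟩ := mrk_surj i
    obtain ⟨b, rfl⟩ := mrk_surj j
    have hab : a ≠ b := fun h => hij (by rw [h])
    exact wedgeT_eq_zero_of_eq F hab (hT a b h2) (th_col Θ he hon hij h2 hsame)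
  · simp only [not_forall, not_not] at h0
    obtain ⟨j, hj⟩ := h0
    obtain ⟨a, rfl⟩ := mrk_surj j
    exact wedgeT_eq_zero_of_zero F T (a := a) (th_root Θ he hv hj)

/-! ### The change of charts -/

/-- the change of charts on the fibre. -/
def fl2 (S S' : L → Bool) (z : L → ℂ) : L → ℂ := fun j => if S j = S' j then z j else (z j)⁻¹

theorem flip_eq (S S' : L → Bool) (p : E) : H95.flip S S' p = (p.1, fl2 S S' p.2) := rfl

theorem hasFDerivAt_fl2 {S S' : L → Bool} {z : L → ℂ} (hz : ∀ j, S j ≠ S' j → z j ≠ 0) :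
    ∃ D : (L → ℂ) →L[ℝ] (L → ℂ), HasFDerivAt (fl2 S S') D z := by
  refine ⟨fderiv ℝ (fl2 S S') z, ?_⟩
  apply DifferentiableAt.hasFDerivAt
  rw [differentiableAt_pi]
  intro j
  by_cases h : S j = S' j
  · simp only [fl2, h, if_true]
    exact (ContinuousLinearMap.proj (R := ℝ) (φ := fun _ : L => ℂ) j).differentiableAt
  · simp only [fl2, h, if_false]
    exact ((ContinuousLinearMap.proj (R := ℝ) (φ := fun _ : L => ℂ) j).differentiableAt).inv
      (hz j h)

theorem fderiv_flip {S S' : L → Bool} {e : E} (hz : ∀ j, S j ≠ S' j → e.2 j ≠ 0) :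
    fderiv ℝ (H95.flip S S') e =
      (ContinuousLinearMap.id ℝ C6).prodMap (fderiv ℝ (fl2 S S') e.2) := by
  obtain ⟨D, hD⟩ := hasFDerivAt_fl2 hz
  have h : HasFDerivAt (H95.flip S S') ((ContinuousLinearMap.id ℝ C6).prodMap D) e := by
    have h1 : HasFDerivAt (fun p : E => p.1) (ContinuousLinearMap.fst ℝ C6 (L → ℂ)) e :=
      hasFDerivAt_fst
    have h2 : HasFDerivAt (fun p : E => fl2 S S' p.2)
        (D.comp (ContinuousLinearMap.snd ℝ C6 (L → ℂ))) e := hD.comp e hasFDerivAt_snd
    exact h1.prodMk h2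
  rw [h.fderiv, hD.fderiv]

theorem GR_flip (X : Ext) {S S' : L → Bool} {e : E} {v : L → ℂ} (he : e.1 ∈ XX)
    (hv : OnC S (rts e.1) e.2 v) (hs : Sep S e.2 v) (hz : ∀ j, S j ≠ S' j → e.2 j ≠ 0) :
    GR X.G S e v = (GR X.G S' (H95.flip S S' e)
      (flipv S S' e.2 v)).compContinuousLinearMap (fderiv ℝ (H95.flip S S') e) := by
  have h := X.chg S S' (rts e.1, e.2) v (rts_K6 he) hv hs hz
  have h1 := fderiv_flip (e := e) hz
  have h2 := fderiv_flip (e := (rts e.1, e.2)) hz
  rw [GR, h, GR, h1, h2]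
  ext u
  simp only [ContinuousAlternatingMap.compContinuousLinearMap_apply]
  rfl

theorem wterm_flip (X : Ext) (Θ : Gauge) (T : MT) {S S' : L → Bool} {e : E} {v : L → ℂ}
    (he : e.1 ∈ XX) (hv : OnC S (rts e.1) e.2 v) (hs : Sep S e.2 v)
    (hz : ∀ j, S j ≠ S' j → e.2 j ≠ 0) :
    wedgeT (GR X.G S e v) T (fun i => Θ.th i S e v) =
      (wedgeT (GR X.G S' (H95.flip S S' e) (flipv S S' e.2 v)) T
        (fun i => Θ.th i S' (H95.flip S S' e)
          (flipv S S' e.2 v))).compContinuousLinearMap (fderiv ℝ (H95.flip S S') e) := by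
  rw [wedgeT_comp, ← GR_flip X he hv hs hz]
  have hf : (fun i => Θ.th i S e v) = fun i => (Θ.th i S' (H95.flip S S' e)
      (flipv S S' e.2 v)).comp (fderiv ℝ (H95.flip S S') e) := by
    funext i
    refine ContinuousLinearMap.ext fun u => funext fun a => ?_
    have := Θ.chg (mrk i) (col4 a) S S' e v (isCl_col4 a) he hv hz
    exact congrArg (fun f : E →L[ℝ] ℝ => f u) this
  rw [hf]

theorem flipv_sq {S S' : L → Bool} {b : C6} {z v : L → ℂ} (hz : ∀ j, S j ≠ S' j → z j ≠ 0)
    (hv : ∀ j, v j ^ 2 = pol (S j) (rts b) (z j)) (j : L) :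
    flipv S S' z v j ^ 2 = pol (S' j) (rts b) (fl2 S S' z j) := by
  by_cases h : S j = S' j
  · simp only [flipv, fl2, h, if_true, hv j]
  · simp only [flipv, fl2, h, if_false]
    rw [mul_pow, hv j, pol_inv (S j) (S' j) (rts b) (hz j h) h]
    ring

theorem flipv_ne {S S' : L → Bool} {z v : L → ℂ} (hz : ∀ j, S j ≠ S' j → z j ≠ 0) (j : L) :
    flipv S S' z v j ≠ 0 ↔ v j ≠ 0 := by
  by_cases h : S j = S' j
  · simp only [flipv, h, if_true]
  · simp only [flipv, h, if_false]
    have := hz j h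
    simp [this]

theorem same_fl {s s' t t' : Bool} {z v w u : ℂ} (hz : s ≠ s' → z ≠ 0) (hw : t ≠ t' → w ≠ 0)
    (h : Same s z v t w u) : Same s' (if s = s' then z else z⁻¹)
      (if s = s' then v else v * z⁻¹ ^ 3) t' (if t = t' then w else w⁻¹)
      (if t = t' then u else u * w⁻¹ ^ 3) := by
  by_cases hst : s = t
  · subst hst
    simp only [Same, if_true] at h
    obtain ⟨rfl, rfl⟩ := h
    by_cases h1 : s = s' <;> by_cases h2 : s = t'
    · subst h1; subst h2
      simp [Same]
    · subst h1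
      have := hw h2
      simp [Same, h2, this]
    · subst h2
      have := hz h1
      have h3 : ¬ s' = s := fun h => h1 h.symm
      simp [Same, h1, h3, this]
    · have h3 : s' = t' := by revert h1 h2; cases s <;> cases s' <;> cases t' <;> simp
      subst h3
      simp [Same, h1]
  · simp only [Same, hst, if_false] at h
    obtain ⟨h1, rfl⟩ := h
    have hz0 : z ≠ 0 := left_ne_zero_of_mul_eq_one h1
    have hw0 : w ≠ 0 := right_ne_zero_of_mul_eq_one h1
    have hw1 : w = z⁻¹ := eq_inv_of_mul_eq_one_right h1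
    subst hw1
    cases s <;> cases t <;> cases s' <;> cases t' <;> simp [Same, hz0] at hst ⊢

theorem same_flip {S S' : L → Bool} {z v : L → ℂ} (hz : ∀ j, S j ≠ S' j → z j ≠ 0) {i j : L}
    (h : Same (S i) (z i) (v i) (S j) (z j) (v j)) :
    Same (S' i) (fl2 S S' z i) (flipv S S' z v i) (S' j) (fl2 S S' z j) (flipv S S' z v j) :=
  same_fl (hz i) (hz j) h

/-- signs -/
def sg (s : Bool) : ℂ := if s then 1 else -1

theorem sum_sheets {M : Type*} [AddCommMonoid M] (Q : (L → ℂ) → M) {r r' : L → ℂ}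
    (h : ∀ j, r j ^ 2 = r' j ^ 2) :
    ∑ s : L → Bool, Q (fun j => sg (s j) * r j) = ∑ s : L → Bool, Q (fun j => sg (s j) * r' j) := by
  classical
  let ε : L → Bool := fun j => decide (r j = r' j)
  have hε : ∀ j (t : Bool), sg (t == ε j) * r' j = sg t * r j := by
    intro j t
    by_cases h1 : r j = r' j
    · have : ε j = true := by simp [ε, h1]
      rw [this, h1]
      cases t <;> simp [sg]
    · have h2 : r j = - r' j := (sq_eq_sq_iff_eq_or_eq_neg.1 (h j)).resolve_left h1
      have : ε j = false := by simp [ε, h1]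
      rw [this, h2]
      cases t <;> simp [sg]
  refine Fintype.sum_bijective (fun s : L → Bool => fun j => (s j == ε j)) ?_ _ _ fun s => ?_
  · apply Function.Involutive.bijective
    intro s
    funext j
    change ((s j == ε j) == ε j) = s j
    cases s j <;> cases ε j <;> rfl
  · congr 1
    funext j
    exact (hε j (s j)).symm

theorem sheet_eq (S : L → Bool) (e : E) (s : L → Bool) :
    sheet S e s = fun j => sg (s j) * csq (pol (S j) (rts e.1) (e.2 j)) := rfl

theorem csq_sq (z : ℂ) : csq z ^ 2 = z := by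
  have h : csq z = z ^ (((2 : ℕ) : ℂ)⁻¹) := by simp [csq]
  rw [h]
  exact Complex.cpow_nat_inv_pow z two_ne_zero

theorem sg_sq (s : Bool) : sg s ^ 2 = 1 := by cases s <;> simp [sg]

theorem zero_comp' {n : ℕ} (A : E →L[ℝ] E) :
    (0 : Alt n E).compContinuousLinearMap A = 0 := by
  ext u
  rfl

theorem sum_comp' {n : ℕ} {ι : Type*} (s : Finset ι) (f : ι → Alt n E) (A : E →L[ℝ] E) :
    (∑ i ∈ s, f i).compContinuousLinearMap A = ∑ i ∈ s, (f i).compContinuousLinearMap A := by
  refine ContinuousAlternatingMap.ext fun u => ?_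
  simp only [ContinuousAlternatingMap.compContinuousLinearMap_apply,
    ContinuousAlternatingMap.sum_apply]

/-- **W2: change of charts of the integrand.** -/
theorem Wf_chg (X : Ext) (Θ : Gauge) (T : MT) (hT : SymT T) (S S' : L → Bool) (e : E)
    (he : e.1 ∈ XX) (hz : ∀ j, S j ≠ S' j → e.2 j ≠ 0) :
    Wf X Θ T S e = (Wf X Θ T S' (H95.flip S S' e)).compContinuousLinearMap
      (fderiv ℝ (H95.flip S S') e) := by
  have hA : Wf X Θ T S e = ∑ s : L → Bool, (wedgeT (GR X.G S' (H95.flip S S' e)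
      (flipv S S' e.2 (sheet S e s))) T (fun i => Θ.th i S' (H95.flip S S' e)
        (flipv S S' e.2 (sheet S e s)))).compContinuousLinearMap
          (fderiv ℝ (H95.flip S S') e) := by
    refine Finset.sum_congr rfl fun s _ => ?_
    have hv : ∀ i, sheet S e s i ^ 2 = pol (S i) (rts e.1) (e.2 i) := by
      intro i
      rw [sheet_eq, mul_pow, sg_sq, csq_sq, one_mul]
    by_cases h : OnC S (rts e.1) e.2 (sheet S e s) ∧ H95.Sep S e.2 (sheet S e s)
    · exact wterm_flip X Θ T he h.1 h.2 hz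
    · rw [term_eq_zero Θ hT he hv h]
      have h' : ¬ (OnC S' (rts (H95.flip S S' e).1) (H95.flip S S' e).2
          (flipv S S' e.2 (sheet S e s)) ∧
          H95.Sep S' (H95.flip S S' e).2 (flipv S S' e.2 (sheet S e s))) := by
        rintro ⟨h1, h2⟩
        apply h
        refine ⟨fun j => ⟨hv j, ?_⟩, fun i j hij hij2 hs => ?_⟩
        · exact (flipv_ne hz j).1 (h1 j).2
        · exact h2 i j hij hij2 (same_flip hz hs)
      rw [term_eq_zero Θ hT (S := S') (e := H95.flip S S' e) he (flipv_sq hz hv) h',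
        zero_comp']
  rw [hA]
  have hB : Wf X Θ T S' (H95.flip S S' e) = ∑ s : L → Bool, wedgeT (GR X.G S'
      (H95.flip S S' e) (flipv S S' e.2 (sheet S e s))) T (fun i => Θ.th i S'
        (H95.flip S S' e) (flipv S S' e.2 (sheet S e s))) := by
    have hr := sum_sheets (fun v => wedgeT (GR X.G S' (H95.flip S S' e) v) T
      (fun i => Θ.th i S' (H95.flip S S' e) v))
      (r := fun j => csq (pol (S' j) (rts (H95.flip S S' e).1) ((H95.flip S S' e).2 j)))
      (r' := flipv S S' e.2 fun j => csq (pol (S j) (rts e.1) (e.2 j))) (fun j => by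
        rw [csq_sq, flipv_sq hz (b := e.1) (fun j => csq_sq _)]
        rfl)
    rw [Wf]
    refine hr.trans (Finset.sum_congr rfl fun s _ => ?_)
    have hf : (fun j => sg (s j) * flipv S S' e.2 (fun j => csq (pol (S j) (rts e.1) (e.2 j))) j) =
        flipv S S' e.2 (sheet S e s) := by
      funext j
      simp only [flipv, sheet_eq]
      split_ifs
      · rfl
      · ring
    rw [hf]
  rw [hB, sum_comp']

end Vale.Agent.P273.H182

end
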