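import Vale.Agent.P273.H573.Skel
import Vale.Agent.P273.H375.DenR
import Vale.Agent.P273.H975.FLim
import Vale.Agent.P273.H182.WfChg

/-!
P273, LimBd: the points of the domain of the fibre coordinates are in the closed region; the roots
are in `XX`; at a point where a mark is at a root its one-form is zero.
-/

noncomputable section

namespace Vale.Agent.P273.H182

open Set Filter MeasureTheory H681 H95 H732 H973 H562
open scoped Topology ContDiff

theorem exp_neg64 : Real.exp (-64) < 1 / 64 := by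
  have h := Real.add_one_le_exp (64 : ℝ)
  rw [Real.exp_neg, inv_eq_one_div]
  exact one_div_lt_one_div_of_lt (by norm_num) (by linarith)

theorem norm_epsL {y α : Fin 3 → ℝ} {k : Fin 3} :
    ‖H573.epsL y α k‖ = Real.exp (-y k) / 256 := by
  rw [H573.epsL, norm_mul, Complex.norm_exp]
  have h1 : ((-(y k : ℂ) + (α k : ℂ) * Complex.I)).re = -y k := by simp
  rw [h1]
  norm_num
  ring

/-- **(D1)** -/
theorem core_zone {y α : Fin 3 → ℝ} (hy : ∀ k, 64 ≤ y k) {x : ℂ}
    (hx : ∀ k, x ∉ H852.ell (ctr k) (H573.epsL y α k) (1 / 16)) (k : Fin 3) :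
    1 / 64 ≤ ‖x - ctr k‖ := by
  by_contra hcon
  push Not at hcon
  apply hx k
  set ε := H573.epsL y α k with hε
  have hn : ‖ε‖ ≤ 1 / 16384 := by
    rw [hε, norm_epsL]
    have h1 : Real.exp (-y k) ≤ Real.exp (-64) := Real.exp_le_exp.2 (by linarith [hy k])
    have h2 := exp_neg64
    linarith
  obtain ⟨s, hs⟩ : ∃ s : ℂ, s ^ 2 = (x - ctr k) ^ 2 - ε :=
    ⟨csq ((x - ctr k) ^ 2 - ε), csq_sq _⟩
  have hs2 : ‖s‖ ^ 2 < (3 / 64) ^ 2 := by
    rw [← norm_pow, hs]
    have h1 := norm_sub_le ((x - ctr k) ^ 2) ε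
    rw [norm_pow] at h1
    have h2 : ‖x - ctr k‖ ^ 2 ≤ (1 / 64) ^ 2 := pow_le_pow_left₀ (norm_nonneg _) hcon.le 2
    norm_num at h2 ⊢
    linarith
  have hs1 : ‖s‖ < 3 / 64 := lt_of_pow_lt_pow_left₀ 2 (by norm_num) hs2
  refine ⟨(x - ctr k) + s, (x - ctr k) - s, ?_, by ring, ?_, ?_⟩
  · linear_combination -hs
  · have := norm_add_le (x - ctr k) s
    linarith
  · have := norm_sub_le (x - ctr k) s
    linarith

section Reg

variable (R : Region) (m : ∀ k, Fin (R.n k + 1))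

theorem farOk_Sx (far : R.Cm → Bool) : H732.FarOk R (H573.Sx R far) := by
  intro j hj
  by_contra h
  rw [H573.Sx, dif_neg h] at hj
  exact Bool.false_ne_true hj

/-- **(D2)** -/
theorem inr_mk {far : R.Cm → Bool} {y α : Fin 3 → ℝ} {x : H573.Fb R m}
    (hx : x ∈ H573.domF R m far y α) (hy : ∀ k, 64 ≤ y k) :
    (W R m).Inr (H573.mk R m y α x) ∧ x.2 ∈ H975.zone R (H573.Sx R far) (1 / 64) 11 := by
  obtain ⟨h1, -, h3⟩ := hx
  refine ⟨⟨fun f => (h1 f).1.le, fun f => (h1 f).2.le⟩, ?_⟩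
  intro j _
  have hj : H573.Sx R far j.1 = far j := by
    rw [H573.Sx, dif_pos j.2]
  have h := h3 j
  change x.2 j ∈ (if H573.Sx R far j.1 = true then Metric.closedBall (0 : ℂ) (11 : ℝ)⁻¹
    else Metric.closedBall (0 : ℂ) 11 ∩ {z : ℂ | ∀ l, 1 / 64 ≤ ‖z - ctr l‖})
  rw [hj]
  rcases hf : far j with _ | _
  · rw [hf] at h
    simp only [H573.zone, Bool.false_eq_true, if_false] at h ⊢
    refine ⟨mem_closedBall_zero_iff.2 h.1, fun l => core_zone hy h.2 l⟩
  · rw [hf] at h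
    simp only [H573.zone, if_true] at h ⊢
    rw [mem_closedBall_zero_iff, inv_eq_one_div]
    exact h.2.le

end Reg

/-! ### The roots -/

theorem sin_neg_of {t : ℝ} (h1 : -7 / 2 ≤ t) (h2 : t ≤ 1 / 2) (hc : Real.cos t = 0) :
    Real.sin t < 0 := by
  have hpi := Real.pi_gt_three
  by_cases h3 : 0 ≤ t
  · exfalso
    have := Real.cos_pos_of_mem_Ioo (x := t) ⟨by linarith, by linarith⟩
    linarith
  · push Not at h3
    by_cases h4 : -Real.pi < t
    · exact Real.sin_neg_of_neg_of_neg_pi_lt h3 h4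
    · exfalso
      push Not at h4
      have h5 := Real.cos_pos_of_mem_Ioo (x := t + Real.pi) ⟨by linarith, by linarith⟩
      rw [Real.cos_add_pi] at h5
      linarith

/-- half differences -/
def dL (y α : Fin 3 → ℝ) (k : Fin 3) : ℂ :=
  (1 / 16 : ℂ) * Complex.exp ((-(y k : ℂ) + (α k : ℂ) * Complex.I) / 2)

theorem rootsL_eq (y α : Fin 3 → ℝ) : rootsL y α = H828.th (dL y α) := rfl

theorem dL_eq (y α : Fin 3 → ℝ) (k : Fin 3) : dL y α k =
    ((1 / 16 * Real.exp (-y k / 2) * Real.cos (α k / 2) : ℝ) : ℂ) +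
      ((1 / 16 * Real.exp (-y k / 2) * Real.sin (α k / 2) : ℝ) : ℂ) * Complex.I := by
  have h : (-(y k : ℂ) + (α k : ℂ) * Complex.I) / 2 =
      ((-y k / 2 : ℝ) : ℂ) + ((α k / 2 : ℝ) : ℂ) * Complex.I := by push_cast; ring
  rw [dL, h, Complex.exp_add, Complex.exp_mul_I, ← Complex.ofReal_exp, ← Complex.ofReal_cos,
    ← Complex.ofReal_sin]
  push_cast
  ring

theorem dL_re (y α : Fin 3 → ℝ) (k : Fin 3) :
    (dL y α k).re = 1 / 16 * Real.exp (-y k / 2) * Real.cos (α k / 2) := by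
  rw [dL_eq]; simp [-Complex.ofReal_mul, -Complex.ofReal_exp, -Complex.ofReal_cos]

theorem dL_im (y α : Fin 3 → ℝ) (k : Fin 3) :
    (dL y α k).im = 1 / 16 * Real.exp (-y k / 2) * Real.sin (α k / 2) := by
  rw [dL_eq]; simp [-Complex.ofReal_mul, -Complex.ofReal_exp, -Complex.ofReal_sin]

theorem dL_re_abs {y α : Fin 3 → ℝ} {k : Fin 3} (hy : 0 ≤ y k) : |(dL y α k).re| ≤ 1 / 16 := by
  rw [dL_re, abs_mul, abs_mul]
  have h1 : |Real.exp (-y k / 2)| ≤ 1 := by
    rw [abs_of_pos (Real.exp_pos _)]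
    exact Real.exp_le_one_iff.2 (by linarith)
  have h2 := Real.abs_cos_le_one (α k / 2)
  have h3 : |(1 / 16 : ℝ)| = 1 / 16 := by norm_num
  rw [h3]
  have h4 := abs_nonneg (Real.exp (-y k / 2))
  have h5 := abs_nonneg (Real.cos (α k / 2))
  nlinarith

theorem dL_im_neg {y α : Fin 3 → ℝ} {k : Fin 3} (h1 : -7 ≤ α k) (h2 : α k ≤ 1)
    (h : (dL y α k).re = 0) : (dL y α k).im < 0 := by
  have he := Real.exp_pos (-y k / 2)
  rw [dL_re] at h
  have hc : Real.cos (α k / 2) = 0 := by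
    rcases mul_eq_zero.1 h with h | h
    · exfalso
      have : 0 < 1 / 16 * Real.exp (-y k / 2) := by positivity
      linarith
    · exact h
  have hs := sin_neg_of (by linarith) (by linarith) hc
  rw [dL_im]
  have : 0 < 1 / 16 * Real.exp (-y k / 2) := by positivity
  nlinarith

/-- **(D3)** -/
theorem rootsL_mem {y α : Fin 3 → ℝ} (hy : ∀ k, 0 ≤ y k) (hα : ∀ k, -7 ≤ α k ∧ α k ≤ 1) :
    rootsL y α ∈ XX := by
  rw [rootsL_eq]
  have hre : ∀ k, |(dL y α k).re| ≤ 1 / 16 := fun k => dL_re_abs (hy k)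
  have hr0 := abs_le.1 (hre 0)
  have hr1 := abs_le.1 (hre 1)
  have hr2 := abs_le.1 (hre 2)
  have hi0 := dL_im_neg (y := y) (hα 0).1 (hα 0).2
  have hi1 := dL_im_neg (y := y) (hα 1).1 (hα 1).2
  have hi2 := dL_im_neg (y := y) (hα 2).1 (hα 2).2
  intro i j hij
  fin_cases i <;> fin_cases j <;> simp [H828.th] at hij ⊢ <;> intro h
  all_goals first
    | exact hi0 (by linarith) | exact hi1 (by linarith) | exact hi2 (by linarith)
    | (exfalso; linarith)

theorem dL_sq (y α : Fin 3 → ℝ) (k : Fin 3) : dL y α k ^ 2 = H573.epsL y α k := by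
  rw [dL, H573.epsL, mul_pow, ← Complex.exp_nat_mul]
  congr 2
  push_cast
  ring

theorem prod_th (d : Fin 3 → ℂ) :
    ∏ k : Fin 6, (Polynomial.X - Polynomial.C (H828.th d k)) =
      ∏ k : Fin 3, ((Polynomial.X - Polynomial.C (ctr k)) ^ 2 - Polynomial.C (d k ^ 2)) := by
  have h0 : ctr 0 = 3 / 2 := by simp [ctr]
  have h1 : ctr 1 = 7 / 2 := by simp [ctr]; norm_num
  have h2 : ctr 2 = 11 / 2 := by simp [ctr]; norm_num
  rw [Fin.prod_univ_six, Fin.prod_univ_three, h0, h1, h2]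
  simp only [H828.th, Matrix.cons_val, Polynomial.C_sub, Polynomial.C_add, Polynomial.C_pow]
  ring

/-- the coefficients of the polynomial with the roots `rootsL`. -/
theorem rts_rootsL' (y α : Fin 3 → ℝ) : rts (rootsL y α) = thA (H573.epsL y α) := by
  funext i
  rw [rts, thA, rootsL_eq, prod_th]
  simp only [dL_sq]

section Reg2

variable (R : Region) (m : ∀ k, Fin (R.n k + 1))

theorem eps_emb (p : Co R m) : R.eps (emb R m p) = H573.epsL p.2.2.1 p.2.2.2.1 := by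
  funext k
  exact eps_scl_psi R m p k

/-- **(D3)** -/
theorem rts_rootsL (p : Co R m) :
    rts (rootsL p.2.2.1 p.2.2.2.1) = thA (R.eps (emb R m p)) := by
  rw [rts_rootsL', eps_emb]

variable {R m}

/-- the closed region is in the domain of the sheets. -/
theorem emb_mem_D1 {S : L → Bool} {p : Co R m} (hI : (W R m).Inr p)
    (hy : ∀ k, 64 ≤ p.2.2.1 k) (hs : p.2.2.2.2 ∈ H975.zone R S (1 / 64) 11) :
    emb R m p ∈ H375.D1 R S := by
  have hZ : H975.ZoneOK R S (Real.exp (-64) / 256) (H975.zone R S (1 / 64) 11) :=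
    H975.zoneOK le_rfl (by have := exp_neg64; linarith)
      (by have := exp_neg64; norm_num at this ⊢; linarith) (by norm_num)
  exact H975.scl_mem_U0 (by have := exp_neg64; linarith) hZ
    (H975.psi_mem_CR m hI (by norm_num) hy hs)

/-- **(D4)** the one-form of a mark at a root is zero. -/
theorem thR_zero {Θ : Gauge} {S : L → Bool} (hS : H732.FarOk R S) {p : Co R m}
    (hI : (W R m).Inr p) (hy : ∀ k, 64 ≤ p.2.2.1 k)
    (hα : ∀ k, -7 ≤ p.2.2.2.1 k ∧ p.2.2.2.1 k ≤ 1)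
    (hs : p.2.2.2.2 ∈ H975.zone R S (1 / 64) 11) {i : Fin 14} (h0 : shE R m S p (mrk i) = 0) :
    H573.thR R m Θ S i p = 0 := by
  have hy0 : ∀ k, 0 ≤ p.2.2.1 k := fun k => by linarith [hy k]
  have h1 : Θ.th i S (posE R m p) (shE R m S p) = 0 := by
    refine th_root Θ (e := posE R m p) (rootsL_mem hy0 hα) (fun j => ?_) h0
    have h2 := H375.sht_sq R hS j (emb_mem_D1 hI hy hs)
    change shE R m S p j ^ 2 = pol (S j) (rts (rootsL p.2.2.1 p.2.2.2.1)) (R.pos (emb R m p) j)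
    rw [rts_rootsL]
    exact h2
  rw [H573.thR, h1, ContinuousLinearMap.zero_comp]

theorem OmR_eq_zero {X : Ext} {Θ : Gauge} {T : MT} {S : L → Bool} {p : Co R m} {i : Fin 14}
    (h : H573.thR R m Θ S i p = 0) : H573.OmR R m X Θ T S p = 0 :=
  wedgeT_eq_zero_of_zero _ T (a := i) h

/-- a point of the domain of the fibre coordinates is admissible, or the integrand is zero. -/
theorem adm_or_zero (X : Ext) (Θ : Gauge) (T : MT) {far : R.Cm → Bool} {y α : Fin 3 → ℝ}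
    {x : H573.Fb R m} (hx : x ∈ H573.domF R m far y α) (hy : ∀ k, 64 ≤ y k) {N₀ : ℝ}
    (hN : ∀ k, N₀ ≤ y k) (hα : ∀ k, -7 ≤ α k ∧ α k ≤ 1) :
    Adm R m (H573.Sx R far) N₀ (H573.mk R m y α x) ∨
      H573.OmR R m X Θ T (H573.Sx R far) (H573.mk R m y α x) = 0 := by
  obtain ⟨h1, h2⟩ := inr_mk R m hx hy
  by_cases h : ∀ j, shE R m (H573.Sx R far) (H573.mk R m y α x) j ≠ 0
  · exact Or.inl ⟨h1, hN, hα, h2, h⟩
  · right
    push Not at h
    obtain ⟨j, hj⟩ := h
    obtain ⟨i, rfl⟩ := mrk_surj j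
    exact OmR_eq_zero (thR_zero (farOk_Sx R far) h1 hy hα h2 hj)

end Reg2

end Vale.Agent.P273.H182
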